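import Mathlib

/-!
# Row 269, block B: approximation on circles, Mittag-Leffler patching of lifts
-/

set_option autoImplicit false

noncomputable section

namespace Crest.Agent.R269

open Set Metric Filter Topology Complex

theorem br_fourier (m : ℕ) (θ : AddCircle (1 : ℝ)) : fourier (m : ℤ) θ = fourier 1 θ ^ m := by
  induction m with
  | zero => simp
  | succ m ih => rw [Nat.cast_succ, fourier_add, ih, pow_succ]

/-- real parts of entire functions are dense on a circle -/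
theorem br_circle {L : ℂ → ℝ} {r : ℝ} (hr : 0 < r) (hL : ContinuousOn L (sphere 0 r)) :
    ∃ P : ℂ → ℂ, Differentiable ℂ P ∧ ∀ z ∈ sphere (0 : ℂ) r, |L z - (P z).re| ≤ 1 := by
  have : Fact ((0 : ℝ) < 1) := ⟨one_pos⟩
  let e : AddCircle (1 : ℝ) → ℂ := fun θ => r * fourier 1 θ
  have he : ∀ θ, e θ ∈ sphere (0 : ℂ) r := fun θ => by
    simp [e, fourier_apply, abs_of_pos hr]
  have hc : Continuous e := continuous_const.mul (fourier 1).continuous
  let φ : C(AddCircle (1 : ℝ), ℂ) := ⟨fun θ => L (e θ), continuous_ofReal.comp (hL.comp_continuous hc he)⟩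
  let S : Submodule ℂ C(AddCircle (1 : ℝ), ℂ) :=
    { carrier := {f | ∃ P Q : ℂ → ℂ, Differentiable ℂ P ∧ Differentiable ℂ Q ∧
        ∀ θ, f θ = P (e θ) + (starRingEnd ℂ) (Q (e θ))}
      add_mem' := by
        rintro f g ⟨P, Q, h1, h2, h3⟩ ⟨P', Q', h1', h2', h3'⟩
        refine ⟨P + P', Q + Q', h1.add h1', h2.add h2', fun θ => ?_⟩
        simp only [ContinuousMap.add_apply, h3, h3', Pi.add_apply, map_add]
        ring
      zero_mem' := ⟨0, 0, differentiable_const _, differentiable_const _, by simp⟩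
      smul_mem' := by
        rintro c f ⟨P, Q, h1, h2, h3⟩
        refine ⟨fun z => c * P z, fun z => (starRingEnd ℂ) c * Q z, h1.const_mul _, h2.const_mul _, fun θ => ?_⟩
        simp only [ContinuousMap.smul_apply, h3, smul_eq_mul, map_mul, conj_conj]
        ring }
  have hr' : (r : ℂ) ≠ 0 := ofReal_ne_zero.2 hr.ne'
  have hS : Submodule.span ℂ (range (@fourier 1)) ≤ S := by
    rw [Submodule.span_le]
    rintro _ ⟨k, rfl⟩
    obtain ⟨m, rfl | rfl⟩ := k.eq_nat_or_neg
    · refine ⟨fun z => (z / r) ^ m, 0, by fun_prop, differentiable_const _, fun θ => ?_⟩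
      rw [br_fourier]
      simp only [e, mul_div_cancel_left₀ _ hr', Pi.zero_apply, map_zero, add_zero]
    · refine ⟨0, fun z => (z / r) ^ m, differentiable_const _, by fun_prop, fun θ => ?_⟩
      rw [fourier_neg, br_fourier]
      simp only [e, mul_div_cancel_left₀ _ hr', Pi.zero_apply, zero_add]
  have hφ : φ ∈ closure (S : Set _) := by
    refine closure_mono hS ?_
    rw [← Submodule.topologicalClosure_coe, span_fourier_closure_eq_top]
    trivial
  obtain ⟨f, ⟨P, Q, h1, h2, h3⟩, hf⟩ := Metric.mem_closure_iff.1 hφ 1 one_pos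
  refine ⟨P + Q, h1.add h2, fun z hz => ?_⟩
  obtain ⟨θ, rfl⟩ : ∃ θ, e θ = z := by
    refine ⟨(arg z / (2 * Real.pi) : ℝ), ?_⟩
    have h4 : ‖z‖ = r := by simpa using hz
    have h5 : (Real.pi : ℂ) ≠ 0 := ofReal_ne_zero.2 Real.pi_ne_zero
    simp only [e]
    rw [fourier_coe_apply, ← h4]
    conv_rhs => rw [← norm_mul_exp_arg_mul_I z]
    congr 2
    push_cast
    field_simp
  have h4 := (ContinuousMap.dist_apply_le_dist θ).trans hf.le
  rw [dist_eq_norm, h3] at h4
  refine le_trans (le_of_eq ?_) ((abs_re_le_norm _).trans h4)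
  simp [φ]

theorem br_log {lam : ℂ → ℂ} {r : ℝ} (h : DifferentiableOn ℂ lam (ball 0 r)) (h0 : ∀ z ∈ ball (0 : ℂ) r, lam z ≠ 0) :
    ∃ g : ℂ → ℂ, DifferentiableOn ℂ g (ball 0 r) ∧ ∀ z ∈ ball (0 : ℂ) r, exp (g z) = lam z := by
  rcases le_or_gt r 0 with hr | hr
  · exact ⟨0, differentiableOn_const _, by simp [ball_eq_empty.2 hr]⟩
  have h1 : DifferentiableOn ℂ (fun z => deriv lam z / lam z) (ball 0 r) := (h.deriv isOpen_ball).div h h0
  obtain ⟨g, g0, hg⟩ := h1.isExactOn_ball.with_val_at 0 (log (lam 0))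
  refine ⟨g, fun z hz => (hg z hz).differentiableAt.differentiableWithinAt, fun z hz => ?_⟩
  have h2 : ∀ z ∈ ball (0 : ℂ) r, HasDerivAt (fun z => lam z * exp (-g z)) 0 z := by
    intro z hz
    have := (h.differentiableAt (isOpen_ball.mem_nhds hz)).hasDerivAt.mul (hg z hz).neg.cexp
    refine this.congr_deriv ?_
    have := h0 z hz
    simp only [Pi.neg_apply]
    field_simp
    ring
  have h3 := isOpen_ball.is_const_of_deriv_eq_zero (convex_ball 0 r).isPreconnected
    (fun z hz => (h2 z hz).differentiableAt.differentiableWithinAt) (fun z hz => (h2 z hz).deriv) hz (mem_ball_self hr)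
  rw [g0, exp_neg (log _), exp_log (h0 0 (mem_ball_self hr)), mul_inv_cancel₀ (h0 0 (mem_ball_self hr)), exp_neg,
    mul_inv_eq_one₀ (exp_ne_zero _)] at h3
  exact h3.symm

theorem br_approx {g : ℂ → ℂ} {r : ℕ} (h : DifferentiableOn ℂ g (ball 0 (r + 1))) {ε : ℝ} (hε : 0 < ε) :
    ∃ P : ℂ → ℂ, Differentiable ℂ P ∧ ∀ z ∈ ball (0 : ℂ) r, ‖g z - P z‖ ≤ ε := by
  have h1 := (h.mono (closedBall_subset_ball (by push_cast; linarith))).hasFPowerSeriesOnBall
    (R := (r : NNReal) + 1 / 2) (c := 0) (by positivity)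
  have h2 := h1.tendstoUniformlyOn' (r' := r) (by exact_mod_cast lt_add_of_pos_right _ (by positivity))
  obtain ⟨m, hm⟩ := (Metric.tendstoUniformlyOn_iff.1 h2 ε hε).exists
  refine ⟨fun z => (cauchyPowerSeries g 0 ((r : NNReal) + 1 / 2 : NNReal)).partialSum m (z - 0), ?_, fun z hz => ?_⟩
  · simp only [FormalMultilinearSeries.partialSum, FormalMultilinearSeries.apply_eq_pow_smul_coeff]
    fun_prop
  · rw [← dist_eq_norm]
    exact (hm z hz).le

/-- Mittag-Leffler patching -/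
theorem br_ml {V : Type} [NormedAddCommGroup V] [NormedSpace ℂ V] {f : ℕ → ℂ → V} {lam : ℕ → ℂ → ℂ}
    (hl : ∀ r : ℕ, DifferentiableOn ℂ (lam r) (ball 0 (r + 1)) ∧
      ∀ z ∈ ball (0 : ℂ) (r + 1), lam r z ≠ 0 ∧ f (r + 1) z = lam r z • f r z) :
    ∃ F : ℂ → V, ∀ r : ℕ, ∃ μ : ℂ → ℂ, DifferentiableOn ℂ μ (ball 0 r) ∧
      ∀ z ∈ ball (0 : ℂ) r, μ z ≠ 0 ∧ F z = μ z • f r z := by
  choose h hh he using fun r => br_log (hl r).1 fun z hz => ((hl r).2 z hz).1
  choose P hP hb using fun r => br_approx (hh r) (ε := (1 / 2) ^ r) (by positivity)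
  have hsub : ∀ {r s : ℕ}, r ≤ s → ball (0 : ℂ) r ⊆ ball 0 s := fun h => ball_subset_ball (by exact_mod_cast h)
  have hsub' : ∀ r : ℕ, ball (0 : ℂ) r ⊆ ball 0 (r + 1) := fun r => ball_subset_ball (by linarith)
  have hu : ∀ r : ℕ, Summable fun l : ℕ => (1 / 2 : ℝ) ^ (l + r) := fun r =>
    (summable_nat_add_iff r).2 summable_geometric_two
  let μ : ℕ → ℂ → ℂ := fun r z => exp (∑' l, (h (l + r) z - P (l + r) z) - ∑ l ∈ Finset.range r, P l z)
  have h1 : ∀ r : ℕ, ∀ z ∈ ball (0 : ℂ) r, μ r z • f r z = μ (r + 1) z • f (r + 1) z := by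
    intro r z hz
    have hs : Summable fun l => h (l + r) z - P (l + r) z :=
      .of_norm_bounded (hu r) fun l => hb _ z (hsub (Nat.le_add_left _ _) hz)
    rw [((hl r).2 z (hsub' r hz)).2, ← he r z (hsub' r hz), smul_smul]
    simp only [μ]
    rw [← exp_add, hs.tsum_eq_zero_add, Finset.sum_range_succ]
    congr 2
    simp only [zero_add, add_assoc, add_comm 1 r]
    ring
  have h2 : ∀ r s : ℕ, r ≤ s → ∀ z ∈ ball (0 : ℂ) r, μ r z • f r z = μ s z • f s z := by
    intro r s hrs z hz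
    induction s, hrs using Nat.le_induction with
    | base => rfl
    | succ s hs ih => rw [ih, h1 s z (hsub hs hz)]
  refine ⟨fun z => μ (⌊‖z‖⌋₊ + 1) z • f (⌊‖z‖⌋₊ + 1) z, fun r => ⟨μ r, ?_, fun z hz => ⟨exp_ne_zero _, ?_⟩⟩⟩
  · refine DifferentiableOn.cexp (DifferentiableOn.sub ?_ ?_)
    · exact differentiableOn_tsum_of_summable_norm (hu r)
        (fun l => ((hh _).mono ((hsub (Nat.le_add_left _ _)).trans (hsub' _))).sub (hP _).differentiableOn) isOpen_ball
        fun l w hw => hb _ w (hsub (Nat.le_add_left _ _) hw)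
    · exact DifferentiableOn.fun_sum fun l _ => (hP l).differentiableOn
  · refine h2 _ _ ?_ z (by simpa using Nat.lt_floor_add_one ‖z‖)
    exact (Nat.floor_lt (norm_nonneg z)).2 (by simpa using hz)

end Crest.Agent.R269
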