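import Crest.Agent.R269.B.Jensen
import Crest.Agent.R269.A.Loc

/-!
# Row 269, block B: consequences of the Brody bound (statements FROZEN)
-/

set_option autoImplicit false
set_option linter.unusedSectionVars false
set_option linter.unusedVariables false

noncomputable section

namespace Crest.Agent.R269

open Set Metric Filter Topology MeasureTheory Matrix
open Crest.AlgGeometry.ProjEmb
open scoped InnerProductSpace ContDiff

/-- trigonometric polynomials are of the form `F + conj G` with `F`, `G` entire. -/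
theorem hyp1_span {p : C(AddCircle (2 * Real.pi), ℂ)}
    (hp : p ∈ Submodule.span ℂ (range (@fourier (2 * Real.pi)))) :
    ∃ F G : ℂ → ℂ, Differentiable ℂ F ∧ Differentiable ℂ G ∧
      ∀ x, p x = F (fourier 1 x) + (starRingEnd ℂ) (G (fourier 1 x)) := by
  have hpow : ∀ (k : ℕ) (x : AddCircle (2 * Real.pi)), fourier (k : ℤ) x = fourier 1 x ^ k := by
    intro k x
    induction k with
    | zero => simp
    | succ k ih => rw [Nat.cast_succ, fourier_add, ih, pow_succ]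
  induction hp using Submodule.span_induction with
  | mem p hp =>
    obtain ⟨n, rfl⟩ := hp
    obtain ⟨k, rfl | rfl⟩ := Int.eq_nat_or_neg n
    · exact ⟨fun z => z ^ k, fun _ => 0, by fun_prop, by fun_prop, fun x => by
        rw [hpow, map_zero, add_zero]⟩
    · exact ⟨fun _ => 0, fun z => z ^ k, by fun_prop, by fun_prop, fun x => by
        rw [fourier_neg, hpow, zero_add]⟩
  | zero => exact ⟨fun _ => 0, fun _ => 0, by fun_prop, by fun_prop, fun x => by simp⟩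
  | add p q _ _ hp hq =>
    obtain ⟨F, G, hF, hG, e⟩ := hp
    obtain ⟨F', G', hF', hG', e'⟩ := hq
    refine ⟨fun z => F z + F' z, fun z => G z + G' z, hF.add hF', hG.add hG', fun x => ?_⟩
    rw [ContinuousMap.add_apply, e, e', map_add]
    ring
  | smul a p _ hp =>
    obtain ⟨F, G, hF, hG, e⟩ := hp
    refine ⟨fun z => a * F z, fun z => (starRingEnd ℂ) a * G z, hF.const_mul _, hG.const_mul _,
      fun x => ?_⟩
    rw [ContinuousMap.smul_apply, e, map_mul, Complex.conj_conj, smul_eq_mul]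
    ring

/-- a continuous real function on a circle is a uniform limit of real parts of entire
functions. -/
theorem hyp1_near {u : ℂ → ℝ} {c : ℂ} {R : ℝ} (hR : 0 < R)
    (hu : ContinuousOn u (sphere c R)) {ε : ℝ} (hε : 0 < ε) :
    ∃ H : ℂ → ℂ, Differentiable ℂ H ∧ ∀ z ∈ sphere c R, |u z - (H z).re| ≤ ε := by
  have : Fact (0 < 2 * Real.pi) := ⟨Real.two_pi_pos⟩
  have hmem : ∀ x : AddCircle (2 * Real.pi), c + R * fourier 1 x ∈ sphere c R := by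
    intro x
    rw [mem_sphere_iff_norm, add_sub_cancel_left, norm_mul, fourier_one, Circle.norm_coe,
      Complex.norm_real, Real.norm_eq_abs, abs_of_pos hR, mul_one]
  have hcont : Continuous fun x : AddCircle (2 * Real.pi) => u (c + R * fourier 1 x) :=
    hu.comp_continuous (by fun_prop) hmem
  let g : C(AddCircle (2 * Real.pi), ℂ) :=
    ⟨fun x => (u (c + R * fourier 1 x) : ℂ), Complex.continuous_ofReal.comp hcont⟩
  have hg : g ∈ closure (Submodule.span ℂ (range (@fourier (2 * Real.pi))) :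
      Set C(AddCircle (2 * Real.pi), ℂ)) := by
    rw [← Submodule.topologicalClosure_coe, span_fourier_closure_eq_top]
    trivial
  obtain ⟨p, hp, hdist⟩ := Metric.mem_closure_iff.1 hg ε hε
  obtain ⟨F, G, hF, hG, e⟩ := hyp1_span hp
  have hR' : (R : ℂ) ≠ 0 := Complex.ofReal_ne_zero.2 hR.ne'
  refine ⟨fun z => F ((z - c) / R) + G ((z - c) / R), by fun_prop, fun z hz => ?_⟩
  have hz' : z ∈ range (circleMap c R) := by rwa [range_circleMap, abs_of_pos hR]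
  obtain ⟨θ, rfl⟩ := hz'
  have hπ : (Real.pi : ℂ) ≠ 0 := Complex.ofReal_ne_zero.2 Real.pi_ne_zero
  have h1 : fourier 1 ((θ : ℝ) : AddCircle (2 * Real.pi)) = Complex.exp (θ * Complex.I) := by
    rw [fourier_coe_apply]
    congr 1
    push_cast
    field_simp
  have h2 : c + R * fourier 1 ((θ : ℝ) : AddCircle (2 * Real.pi)) = circleMap c R θ := by
    rw [h1, circleMap]
  have h3 : (circleMap c R θ - c) / R = fourier 1 ((θ : ℝ) : AddCircle (2 * Real.pi)) := by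
    rw [← h2]
    field_simp
    ring
  have h4 := (ContinuousMap.dist_apply_le_dist (f := g) (g := p)
    ((θ : ℝ) : AddCircle (2 * Real.pi))).trans hdist.le
  rw [dist_eq_norm, e] at h4
  refine le_trans ?_ h4
  refine le_trans (le_of_eq ?_) (Complex.abs_re_le_norm _)
  simp only [g, ContinuousMap.coe_mk, h2, h3, Complex.sub_re, Complex.add_re, Complex.ofReal_re,
    Complex.conj_re]

lemma hyp1_fd (z v : ℂ) : fderiv ℝ (fun x : ℂ => ‖x‖ ^ 2) z v = 2 * ⟪z, v⟫_ℝ := by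
  rw [fderiv_norm_sq_apply, two_smul, two_mul]; rfl

lemma hyp1_nsq (z : ℂ) : levi (fun x : ℂ => ‖x‖ ^ 2) z 1 = 1 := by
  have h : ∀ w : ℂ, fderiv ℝ (fderiv ℝ (fun x : ℂ => ‖x‖ ^ 2)) z w w = 2 * ‖w‖ ^ 2 := fun w => by
    have e : fderiv ℝ (fun x : ℂ => ‖x‖ ^ 2) = ((2 : ℝ) • innerSL ℝ : ℂ →L[ℝ] ℂ →L[ℝ] ℝ) := by
      ext1 a
      ext1 b
      rw [hyp1_fd]; simp
    rw [e, ContinuousLinearMap.fderiv, ← real_inner_self_eq_norm_sq]
    rfl
  rw [levi, h, h, norm_smul, Complex.norm_I]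
  norm_num

lemma hyp1_max {f : ℂ → ℝ} {r B : ℝ} (hr : 0 < r) (hf : ∀ z ∈ closedBall (0 : ℂ) r, ContDiffAt ℝ 2 f z)
    (h : ∀ z ∈ ball (0 : ℂ) r, 0 ≤ levi f z 1) (hB : ∀ z ∈ sphere (0 : ℂ) r, f z ≤ B) :
    ∀ z ∈ closedBall (0 : ℂ) r, f z ≤ B := by
  intro z hz
  refine le_of_forall_pos_le_add fun δ hδ => ?_
  obtain ⟨ε, hε, hεδ⟩ : ∃ ε : ℝ, 0 < ε ∧ ε * r ^ 2 = δ := ⟨δ / r ^ 2, by positivity, by field_simp⟩
  have hn : ∀ y : ℂ, ContDiffAt ℝ 2 (fun x : ℂ => ‖x‖ ^ 2) y := fun y => (contDiff_norm_sq ℝ).contDiffAt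
  have hg : ∀ y ∈ closedBall (0 : ℂ) r, ContDiffAt ℝ 2 (fun x => f x + ε * ‖x‖ ^ 2) y := fun y hy =>
    (hf y hy).add (contDiffAt_const.mul (hn y))
  obtain ⟨w, hw, hmax⟩ := (isCompact_closedBall (0 : ℂ) r).exists_isMaxOn ⟨z, hz⟩
    (fun y hy => (hg y hy).continuousAt.continuousWithinAt)
  have h1 : f z + ε * ‖z‖ ^ 2 ≤ f w + ε * ‖w‖ ^ 2 := hmax hz
  by_cases hwb : w ∈ ball (0 : ℂ) r
  · have h2 := levi_nonpos_of_isLocalMax (hg w hw) (hmax.isLocalMax (closedBall_mem_nhds_of_mem hwb)) 1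
    rw [levi_add (hf w hw) (contDiffAt_const.mul (hn w)), levi_const_mul (hn w), hyp1_nsq] at h2
    linarith [h w hwb]
  · have hs : w ∈ sphere (0 : ℂ) r := le_antisymm hw (not_lt.1 hwb)
    have h2 := hB w hs
    rw [mem_sphere_zero_iff_norm.1 hs] at h1
    have h3 : 0 ≤ ε * ‖z‖ ^ 2 := by positivity
    linarith

/-- Sub-mean value inequality for `C²` functions with nonnegative Laplacian (`R258.Sub`, or: `r ↦ avg f (r ·)` is monotone). -/
theorem le_avg_of_levi {f : ℂ → ℝ} {r : ℝ} (hr : 0 < r) (hf : ∀ z ∈ closedBall (0 : ℂ) r, ContDiffAt ℝ 2 f z)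
    (h : ∀ z ∈ ball (0 : ℂ) r, 0 ≤ levi f z 1) : f 0 ≤ Real.circleAverage f 0 r := by
  refine le_of_forall_pos_le_add fun δ hδ => ?_
  have hc : ContinuousOn f (sphere 0 r) := fun z hz =>
    (hf z (sphere_subset_closedBall hz)).continuousAt.continuousWithinAt
  obtain ⟨H, hH, hHf⟩ := hyp1_near hr hc (half_pos hδ)
  have hre : ∀ z, ContDiffAt ℝ 2 (fun x => (H x).re) z := fun z =>
    Complex.reCLM.contDiff.contDiffAt.comp z ((hH.analyticAt z).contDiffAt.restrict_scalars ℝ)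
  have h1 := hyp1_max (f := fun x => f x - (H x).re) (B := δ / 2) hr (fun z hz => (hf z hz).sub (hre z))
    (fun z hz => by
      rw [levi_sub (hf z (ball_subset_closedBall hz)) (hre z), levi_re (hH.analyticAt z), sub_zero]
      exact h z hz) (fun z hz => (abs_le.1 (hHf z hz)).2) 0 (mem_closedBall_self hr.le)
  have hint : CircleIntegrable H 0 r := hH.continuous.continuousOn.circleIntegrable hr.le
  have e : Real.circleAverage (fun ζ => (H ζ).re) 0 r = (H 0).re := by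
    rw [← (hH.diffContOnCl (s := ball 0 |r|)).circleAverage]
    exact Complex.reCLM.circleAverage_comp_comm hint
  have hi1 : CircleIntegrable (fun ζ => (H ζ).re) 0 r :=
    (Complex.continuous_re.comp hH.continuous).continuousOn.circleIntegrable hr.le
  have hi2 : CircleIntegrable f 0 r := hc.circleIntegrable hr.le
  have h2 : Real.circleAverage (fun ζ => (H ζ).re - f ζ) 0 r ≤ δ / 2 :=
    Real.circleAverage_mono_on_of_le_circle (hi1.sub hi2) fun z hz => by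
      rw [abs_of_pos hr] at hz
      linarith [(abs_le.1 (hHf z hz)).1]
  rw [Real.circleAverage_fun_sub hi1 hi2, e] at h2
  linarith

/-- Maximum principle (add `ε ‖z‖²`, `levi_nonpos_of_isLocalMax`). -/
theorem le_of_levi {f : ℂ → ℝ} {r B : ℝ} (hr : 0 < r) (hf : ∀ z ∈ closedBall (0 : ℂ) r, ContDiffAt ℝ 2 f z)
    (h : ∀ z ∈ ball (0 : ℂ) r, 0 ≤ levi f z 1) (hB : ∀ z ∈ sphere (0 : ℂ) r, f z ≤ B) :
    ∀ z ∈ closedBall (0 : ℂ) r, f z ≤ B := by
  exact hyp1_max hr hf h hB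

namespace Geo

variable {N n : ℕ} {X : Geo N n} {M : ℝ} {G : ℂ → Cn (N + 1)}

theorem Hyp.nonneg (h : X.Hyp M) : 0 ≤ M := by
  obtain ⟨y, hy⟩ := X.Y_nonempty
  exact (om_nonneg _ _).trans (h (fun _ => y) (differentiableOn_const y) fun _ _ => hy)

/-- Rescale to the disc of radius `1 - ‖z‖` about `z`. -/
theorem Hyp.speed (h : X.Hyp M) (hG : DifferentiableOn ℂ G (ball 0 1)) (hY : MapsTo G (ball 0 1) X.Y) {z : ℂ}
    (hz : z ∈ ball (0 : ℂ) 1) : om (G z) (deriv G z) ≤ 4 * M / (1 - ‖z‖ ^ 2) ^ 2 := by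
  have hz' := mem_ball_zero_iff.1 hz
  have hρ : 0 < 1 - ‖z‖ := by linarith
  have hm : MapsTo (fun w : ℂ => z + ((1 - ‖z‖ : ℝ) : ℂ) * w) (ball 0 1) (ball 0 1) := fun w hw => by
    rw [mem_ball_zero_iff] at hw ⊢
    refine (norm_add_le _ _).trans_lt ?_
    rw [norm_mul, Complex.norm_real, Real.norm_of_nonneg hρ.le]
    nlinarith
  have h1 := h (G ∘ fun w => z + ((1 - ‖z‖ : ℝ) : ℂ) * w) (hG.comp (by fun_prop) hm) (hY.comp hm)
  have h2 : HasDerivAt (fun w : ℂ => z + ((1 - ‖z‖ : ℝ) : ℂ) * w) ((1 - ‖z‖ : ℝ) : ℂ) 0 := by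
    simpa using ((hasDerivAt_id (0 : ℂ)).const_mul ((1 - ‖z‖ : ℝ) : ℂ)).const_add z
  have h3 := (hG.differentiableAt (isOpen_ball.mem_nhds hz)).hasDerivAt.scomp_of_eq 0 h2 (by simp)
  rw [h3.deriv, om_smul, Function.comp_apply, mul_zero, add_zero, Complex.norm_real, Real.norm_of_nonneg hρ.le] at h1
  have h4 : 0 < 1 - ‖z‖ ^ 2 := by nlinarith [norm_nonneg z]
  rw [le_div_iff₀ (by positivity)]
  have h5 : (1 - ‖z‖ ^ 2) ^ 2 ≤ (2 * (1 - ‖z‖)) ^ 2 := pow_le_pow_left₀ h4.le (by nlinarith) 2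
  nlinarith [mul_le_mul_of_nonneg_left h5 (om_nonneg (G z) (deriv G z))]

lemma hyp1_c1 {z : ℂ} (hz : z ∈ ball (0 : ℂ) 1) : 0 < 1 - ‖z‖ ^ 2 := by
  have := mem_ball_zero_iff.1 hz
  nlinarith [norm_nonneg z]

lemma hyp1_c2 {z : ℂ} (hz : z ∈ ball (0 : ℂ) 1) : ContDiffAt ℝ 2 (fun x : ℂ => Real.log (1 - ‖x‖ ^ 2)) z :=
  (contDiffAt_const.sub (contDiff_norm_sq ℝ).contDiffAt).log (hyp1_c1 hz).ne'

lemma hyp1_l2 {z : ℂ} (hz : z ∈ ball (0 : ℂ) 1) :
    levi (fun x : ℂ => Real.log (1 - ‖x‖ ^ 2)) z 1 = -(1 / (1 - ‖z‖ ^ 2) ^ 2) := by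
  have h0 := (hyp1_c1 hz).ne'
  have hn : ContDiffAt ℝ 2 (fun x : ℂ => ‖x‖ ^ 2) z := (contDiff_norm_sq ℝ).contDiffAt
  have hd : ∀ v, fderiv ℝ (fun x : ℂ => 1 - ‖x‖ ^ 2) z v = -(2 * ⟪z, v⟫_ℝ) := fun v => by
    rw [fderiv_const_sub, _root_.neg_apply, hyp1_fd]
  rw [levi_comp_real (h := Real.log) (f := fun x : ℂ => 1 - ‖x‖ ^ 2) (Real.contDiffAt_log.2 h0)
    (contDiffAt_const.sub hn), levi_sub contDiffAt_const hn, levi_const, hyp1_nsq, hd, hd, Real.deriv_log', deriv_inv,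
    Complex.inner, Complex.inner]
  have e : ‖z‖ ^ 2 = z.re ^ 2 + z.im ^ 2 := by rw [Complex.sq_norm, Complex.normSq_apply]; ring
  simp only [smul_eq_mul, mul_one, one_mul, Complex.mul_re, Complex.conj_re, Complex.conj_im, Complex.I_re, Complex.I_im]
  field_simp
  rw [e]
  ring

lemma Hyp.hyp1_an (hG : DifferentiableOn ℂ G (ball 0 1)) {z : ℂ} (hz : z ∈ ball (0 : ℂ) 1) : AnalyticAt ℂ G z :=
  hG.analyticAt (isOpen_ball.mem_nhds hz)

lemma Hyp.hyp1_c3 (hG : DifferentiableOn ℂ G (ball 0 1)) (hY : MapsTo G (ball 0 1) X.Y) {z : ℂ}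
    (hz : z ∈ ball (0 : ℂ) 1) : ContDiffAt ℝ 2 (fun x => Real.log (‖G x‖ ^ 2)) z :=
  ((contDiffAt_log_norm_sq (hY hz).1).of_le (WithTop.coe_le_coe.2 (le_top : (2 : ℕ∞) ≤ ⊤))).comp z
    ((Hyp.hyp1_an hG hz).contDiffAt.restrict_scalars ℝ)

lemma Hyp.hyp1_v (h : X.Hyp M) (hG : DifferentiableOn ℂ G (ball 0 1)) (hY : MapsTo G (ball 0 1) X.Y) {z : ℂ}
    (hz : z ∈ ball (0 : ℂ) 1) :
    ContDiffAt ℝ 2 (fun x => -(4 * M) * Real.log (1 - ‖x‖ ^ 2) - Real.log (‖G x‖ ^ 2)) z ∧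
      0 ≤ levi (fun x => -(4 * M) * Real.log (1 - ‖x‖ ^ 2) - Real.log (‖G x‖ ^ 2)) z 1 := by
  have h1 : ContDiffAt ℝ 2 (fun x : ℂ => -(4 * M) * Real.log (1 - ‖x‖ ^ 2)) z := contDiffAt_const.mul (hyp1_c2 hz)
  refine ⟨h1.sub (Hyp.hyp1_c3 hG hY hz), ?_⟩
  rw [levi_sub h1 (Hyp.hyp1_c3 hG hY hz), levi_const_mul (hyp1_c2 hz), hyp1_l2 hz,
    levi_comp_hol (f := fun y : Cn (N + 1) => Real.log (‖y‖ ^ 2)) (φ := G)
      ((contDiffAt_log_norm_sq (hY hz).1).of_le (WithTop.coe_le_coe.2 (le_top : (2 : ℕ∞) ≤ ⊤))) (Hyp.hyp1_an hG hz),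
    levi_log_norm_sq (hY hz).1, fderiv_apply_one_eq_deriv]
  have h2 := h.speed hG hY hz
  rw [div_eq_mul_one_div] at h2
  linarith

/-- `v = - 4 M log (1 - ‖z‖²) - log ‖G‖²` has `levi ≥ 0`. -/
theorem Hyp.avg_le (h : X.Hyp M) (hG : DifferentiableOn ℂ G (ball 0 1)) (hY : MapsTo G (ball 0 1) X.Y) {r : ℝ}
    (hr : 0 < r) (hr1 : r < 1) :
    Real.circleAverage (fun z => Real.log (‖G z‖ ^ 2)) 0 r - Real.log (‖G 0‖ ^ 2) ≤ -(4 * M * Real.log (1 - r ^ 2)) := by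
  have hs : closedBall (0 : ℂ) r ⊆ ball 0 1 := closedBall_subset_ball hr1
  have h1 := le_avg_of_levi hr (fun z hz => (h.hyp1_v hG hY (hs hz)).1)
    (fun z hz => (h.hyp1_v hG hY (hs (ball_subset_closedBall hz))).2)
  have hi : CircleIntegrable (fun z => Real.log (‖G z‖ ^ 2)) 0 r :=
    ContinuousOn.circleIntegrable hr.le fun z hz =>
      (Hyp.hyp1_c3 hG hY (hs (sphere_subset_closedBall hz))).continuousAt.continuousWithinAt
  have h2 : Real.circleAverage (fun x => -(4 * M) * Real.log (1 - ‖x‖ ^ 2) - Real.log (‖G x‖ ^ 2)) 0 r =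
      Real.circleAverage (fun x => -(4 * M) * Real.log (1 - r ^ 2) - Real.log (‖G x‖ ^ 2)) 0 r :=
    Real.circleAverage_congr_sphere fun z hz => by
      rw [abs_of_pos hr] at hz
      simp only [mem_sphere_zero_iff_norm.1 hz]
  rw [h2, Real.circleAverage_fun_sub (circleIntegrable_const _ _ _) hi, Real.circleAverage_const] at h1
  simp only [norm_zero, ne_eq, OfNat.ofNat_ne_zero, not_false_eq_true, zero_pow, sub_zero, Real.log_one, mul_zero] at h1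
  linarith

theorem Hyp.lower (h : X.Hyp M) (hG : DifferentiableOn ℂ G (ball 0 1)) (hY : MapsTo G (ball 0 1) X.Y) {r m : ℝ}
    (hr : 0 < r) (hr1 : r < 1) (hm : 0 < m) (hb : ∀ z ∈ sphere (0 : ℂ) r, m ≤ ‖G z‖) :
    ∀ z ∈ closedBall (0 : ℂ) r, Real.log (m ^ 2) + 4 * M * Real.log (1 - r ^ 2) ≤ Real.log (‖G z‖ ^ 2) := by
  intro z hz
  have hs : closedBall (0 : ℂ) r ⊆ ball 0 1 := closedBall_subset_ball hr1
  have h1 := le_of_levi (B := -(4 * M) * Real.log (1 - r ^ 2) - Real.log (m ^ 2)) hr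
    (fun z hz => (h.hyp1_v hG hY (hs hz)).1) (fun z hz => (h.hyp1_v hG hY (hs (ball_subset_closedBall hz))).2)
    (fun w hw => by
      have h2 : Real.log (m ^ 2) ≤ Real.log (‖G w‖ ^ 2) :=
        Real.log_le_log (by positivity) (pow_le_pow_left₀ hm.le (hb w hw) 2)
      simp only [mem_sphere_zero_iff_norm.1 hw]
      linarith) z hz
  have h3 : Real.log (1 - ‖z‖ ^ 2) ≤ 0 := Real.log_nonpos (hyp1_c1 (hs hz)).le (by nlinarith [sq_nonneg ‖z‖])
  have h4 := mul_nonneg_of_nonpos_of_nonpos (by linarith [h.nonneg] : -(4 * M) ≤ 0) h3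
  linarith

/-- `d (y / ℓ y) w` kills `y` and has norm `≤ 6 ‖w^⊥‖ / ‖y‖`. -/
theorem Hyp.phi_le (h : X.Hyp M) (d : X.Disc) {ℓ : Cn (N + 1) →L[ℂ] ℂ} (hℓ : ‖ℓ‖ ≤ 1) (h0 : ‖d.G 0‖ ≤ 2 * ‖ℓ (d.G 0)‖) :
    d.Phi ℓ ≤ 36 * M := by
  have h1 := h d.G d.hG.differentiableOn fun z hz => d.memY z (ball_subset_closedBall hz)
  have hy : d.G 0 ≠ 0 := (d.memY 0 (mem_closedBall_self zero_le_one)).1
  have hG := (d.hG.differentiableOn.differentiableAt (ball_mem_nhds 0 one_pos)).hasDerivAt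
  have hy' := norm_pos_iff.2 hy
  have ha' : 0 < ‖ℓ (d.G 0)‖ := by linarith
  have ha := norm_pos_iff.1 ha'
  have h2 := ((ℓ.hasFDerivAt.comp_hasDerivAt 0 hG).inv ha).smul hG
  rw [Disc.Phi, show deriv (fun z => (ℓ (d.G z))⁻¹ • d.G z) 0 = _ from h2.deriv]
  simp only [Function.comp_apply, Pi.inv_apply]
  generalize d.G 0 = y at *
  generalize deriv d.G 0 = w at *
  obtain ⟨w', t, rfl, hw⟩ : ∃ (w' : Cn (N + 1)) (t : ℂ), w = w' + t • y ∧ ⟪y, w'⟫_ℂ = 0 := by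
    refine ⟨w - (⟪y, w⟫_ℂ / ⟪y, y⟫_ℂ) • y, _, (sub_add_cancel _ _).symm, ?_⟩
    rw [inner_sub_right, inner_smul_right, div_mul_cancel₀ _ (inner_self_ne_zero.2 hy), sub_self]
  rw [om_add_self, om_of_orth hw] at h1
  have e : (ℓ y)⁻¹ • (w' + t • y) + (-ℓ (w' + t • y) / ℓ y ^ 2) • y = (ℓ y)⁻¹ • w' - (ℓ w' / ℓ y ^ 2) • y := by
    rw [map_add, map_smul, smul_eq_mul]
    match_scalars <;> field_simp
    ring
  have b1 : ‖ℓ w'‖ ≤ ‖w'‖ := (ℓ.le_opNorm _).trans (mul_le_of_le_one_left (norm_nonneg _) hℓ)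
  have b2 : ‖(ℓ y)⁻¹ • w' - (ℓ w' / ℓ y ^ 2) • y‖ ≤ 6 * (‖w'‖ / ‖y‖) := by
    refine (norm_sub_le _ _).trans ?_
    rw [norm_smul, norm_smul, norm_inv, norm_div, norm_pow]
    have c1 : ‖ℓ y‖⁻¹ * ‖w'‖ ≤ 2 * (‖w'‖ / ‖y‖) := by
      rw [inv_mul_eq_div, ← mul_div_assoc, div_le_div_iff₀ ha' hy']
      nlinarith [norm_nonneg w']
    have c2 : ‖ℓ w'‖ / ‖ℓ y‖ ^ 2 * ‖y‖ ≤ 4 * (‖w'‖ / ‖y‖) := by
      rw [div_mul_eq_mul_div, ← mul_div_assoc, div_le_div_iff₀ (by positivity) hy']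
      have := mul_le_mul b1 (mul_self_le_mul_self hy'.le h0) (by positivity) (norm_nonneg _)
      nlinarith
    linarith
  rw [e]
  refine (pow_le_pow_left₀ (norm_nonneg _) b2 2).trans ?_
  rw [mul_pow, div_pow]
  linarith

end Geo

end Crest.Agent.R269
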