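import Crest.Agent.R269.A.Alg
import Crest.Agent.R269.A.Levi
import Crest.Agent.R258.Sub

/-!
# Row 269, block B: Jensen inequalities for discs (statements FROZEN)
-/

set_option autoImplicit false
set_option linter.unusedSectionVars false
set_option linter.unusedVariables false

noncomputable section

namespace Crest.Agent.R269

open Set Metric Filter Topology MeasureTheory Matrix
open Crest.AlgGeometry.ProjEmb
open scoped InnerProductSpace ContDiff

/-- Apply the mean value property / Jensen formula (`Mathlib.Analysis.Complex.JensenFormula`, or the subharmonicity of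
`log (‖S‖² + ε)`) on circles of radius `r < 1` to get `log ‖S 0‖ ≤ avg log (max ‖S (r z)‖ ε)`; let `r → 1` (uniform
convergence), `ε ≤ min w`. -/
theorem log_le_avg {S : ℂ → ℂ} (hS : DiffContOnCl ℂ S (ball 0 1)) (h0 : S 0 ≠ 0) {w : ℂ → ℝ}
    (hw : ContinuousOn w (sphere 0 1)) (hpos : ∀ z ∈ sphere (0 : ℂ) 1, 0 < w z) (hle : ∀ z ∈ sphere (0 : ℂ) 1, ‖S z‖ ≤ w z) :
    Real.log ‖S 0‖ ≤ Real.circleAverage (fun z => Real.log (w z)) 0 1 := by
  refine le_of_forall_pos_le_add fun η hη => ?_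
  have hl : ContinuousOn (fun z => Real.log (w z)) (sphere 0 1) := hw.log fun z hz => (hpos z hz).ne'
  obtain ⟨H, hH, hHu⟩ := R258.exists_entire_re_near one_pos hl (half_pos hη)
  have hF : DiffContOnCl ℂ (fun z => S z * Complex.exp (-H z)) (ball 0 1) :=
    ⟨hS.1.mul (by fun_prop), hS.2.mul hH.continuous.neg.cexp.continuousOn⟩
  have h1 : ‖S 0 * Complex.exp (-H 0)‖ ≤ Real.exp (η / 2) := by
    refine Complex.norm_le_of_forall_mem_frontier_norm_le isBounded_ball hF (fun z hz => ?_)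
      (subset_closure (mem_ball_self one_pos))
    rw [frontier_ball _ one_ne_zero] at hz
    rw [norm_mul, Complex.norm_exp]
    refine (mul_le_mul_of_nonneg_right (hle z hz) (Real.exp_pos _).le).trans ?_
    rw [← Real.exp_log (hpos z hz), ← Real.exp_add, Real.exp_le_exp, Complex.neg_re]
    linarith [(abs_le.1 (hHu z hz)).2]
  rw [norm_mul, Complex.norm_exp, ← Real.exp_log (norm_pos_iff.2 h0), ← Real.exp_add, Real.exp_le_exp,
    Complex.neg_re] at h1
  have h2 : Real.circleAverage (fun z => (H z).re) 0 1 = (H 0).re := by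
    have h3 := Complex.reCLM.circleAverage_comp_comm (f := H) (c := 0) (R := 1)
      (hH.continuous.continuousOn.circleIntegrable zero_le_one)
    rw [(hH.diffContOnCl (s := ball 0 |1|)).circleAverage] at h3
    exact h3
  have i1 : CircleIntegrable (fun z => Real.log (w z)) 0 1 := hl.circleIntegrable zero_le_one
  have i2 : CircleIntegrable (fun _ : ℂ => η / 2) 0 1 := continuousOn_const.circleIntegrable zero_le_one
  have h4 := Real.circleAverage_mono (f₁ := fun z => (H z).re) (f₂ := fun z => Real.log (w z) + η / 2)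
    ((Complex.continuous_re.comp hH.continuous).continuousOn.circleIntegrable zero_le_one) (i1.add i2)
    fun z hz => by linarith [(abs_le.1 (hHu z (by simpa using hz))).1]
  rw [Real.circleAverage_fun_add i1 i2, Real.circleAverage_const] at h4
  linarith

/-- `log_le_avg` for `S` and `S⁻¹`. -/
theorem avg_log_eq {S : ℂ → ℂ} (hS : DiffContOnCl ℂ S (ball 0 1)) (h0 : ∀ z ∈ closedBall (0 : ℂ) 1, S z ≠ 0) :
    Real.circleAverage (fun z => Real.log (‖S z‖ ^ 2)) 0 1 = Real.log (‖S 0‖ ^ 2) := by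
  have hs : sphere (0 : ℂ) 1 ⊆ closedBall 0 1 := sphere_subset_closedBall
  have h00 := h0 0 (mem_closedBall_self zero_le_one)
  have hc : ContinuousOn S (sphere 0 1) := hS.continuousOn_ball.mono hs
  have h1 := log_le_avg hS h00 hc.norm (fun z hz => norm_pos_iff.2 (h0 z (hs hz))) fun z _ => le_rfl
  have hS' : DiffContOnCl ℂ (fun z => (S z)⁻¹) (ball 0 1) :=
    hS.inv fun z hz => h0 z (by rwa [closure_ball _ one_ne_zero] at hz)
  have h2 := log_le_avg hS' (inv_ne_zero h00) (w := fun z => ‖S z‖⁻¹)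
    (hc.norm.inv₀ fun z hz => norm_ne_zero_iff.2 (h0 z (hs hz)))
    (fun z hz => inv_pos.2 (norm_pos_iff.2 (h0 z (hs hz)))) fun z _ => (norm_inv _).le
  have h3 : Real.circleAverage (fun z => Real.log ‖S z‖⁻¹) 0 1 =
      (-1 : ℝ) • Real.circleAverage (fun z => Real.log ‖S z‖) 0 1 := by
    rw [← Real.circleAverage_fun_smul]; simp
  have h4 : Real.circleAverage (fun z => Real.log (‖S z‖ ^ 2)) 0 1 =
      (2 : ℝ) • Real.circleAverage (fun z => Real.log ‖S z‖) 0 1 := by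
    rw [← Real.circleAverage_fun_smul]; simp
  rw [h3, norm_inv, Real.log_inv, smul_eq_mul] at h2
  rw [h4, Real.log_pow, smul_eq_mul]
  push_cast
  linarith

/-- Apply `log_le_avg` to `⟪h 0, h z⟫`. -/
theorem log_norm_le_avg {ι : Type} [Fintype ι] {h : ℂ → EuclideanSpace ℂ ι} (hh : DiffContOnCl ℂ h (ball 0 1))
    (h0 : ∀ z ∈ closedBall (0 : ℂ) 1, h z ≠ 0) :
    Real.log (‖h 0‖ ^ 2) ≤ Real.circleAverage (fun z => Real.log (‖h z‖ ^ 2)) 0 1 := by
  have hs : sphere (0 : ℂ) 1 ⊆ closedBall 0 1 := sphere_subset_closedBall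
  have h00 := norm_pos_iff.2 (h0 0 (mem_closedBall_self zero_le_one))
  have hc : ContinuousOn h (sphere 0 1) := hh.continuousOn_ball.mono hs
  set L : EuclideanSpace ℂ ι →L[ℂ] ℂ := (‖h 0‖⁻¹ : ℂ) • innerSL ℂ (h 0) with hL
  have hL0 : L (h 0) = ‖h 0‖ := by
    have : (‖h 0‖ : ℂ) ≠ 0 := by exact_mod_cast h00.ne'
    simp only [hL, _root_.smul_apply, innerSL_apply_apply, inner_self_eq_norm_sq_to_K, smul_eq_mul]
    change (‖h 0‖ : ℂ)⁻¹ * (‖h 0‖ : ℂ) ^ 2 = _
    field_simp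
  have hS : DiffContOnCl ℂ (fun z => L (h z)) (ball 0 1) := L.differentiable.comp_diffContOnCl hh
  have h1 := log_le_avg hS (by rw [hL0]; exact_mod_cast h00.ne') hc.norm
    (fun z hz => norm_pos_iff.2 (h0 z (hs hz))) fun z _ => by
      simp only [hL, _root_.smul_apply, innerSL_apply_apply, smul_eq_mul, norm_mul, norm_inv, Complex.norm_real,
        norm_norm]
      rw [inv_mul_le_iff₀ h00]
      exact norm_inner_le_norm _ _
  have h4 : Real.circleAverage (fun z => Real.log (‖h z‖ ^ 2)) 0 1 =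
      (2 : ℝ) • Real.circleAverage (fun z => Real.log ‖h z‖) 0 1 := by
    rw [← Real.circleAverage_fun_smul]; simp
  rw [hL0, Complex.norm_real, norm_norm] at h1
  rw [h4, Real.log_pow, smul_eq_mul]
  push_cast
  linarith

theorem xi_zero (κ : ℝ) {R : ℝ} (hR : 0 < R) : xi κ R 0 = 0 := by
  simp [xi, Real.sqrt_sq hR.le]

theorem xi_nonneg {κ R : ℝ} (hκ : 0 ≤ κ) (hR : 0 < R) (s : ℝ) : 0 ≤ xi κ R s := by
  exact sub_nonneg.2 (mul_le_mul_of_nonneg_left (Real.le_sqrt_of_sq_le (by nlinarith)) hκ)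

theorem j2_norm (a b : ℝ) : ‖(⟨a, b⟩ : ℂ)‖ = √(a ^ 2 + b ^ 2) := by
  rw [Complex.norm_eq_sqrt_sq_add_sq]

theorem xi_lip {κ : ℝ} (hκ : 0 ≤ κ) (R s t : ℝ) : xi κ R s ≤ xi κ R t + κ * |s - t| := by
  have h : √(R ^ 2 + s ^ 2) ≤ √(R ^ 2 + t ^ 2) + |s - t| := by
    have h1 := norm_add_le (⟨R, t⟩ : ℂ) (⟨0, s - t⟩ : ℂ)
    rw [j2_norm, j2_norm, show (⟨R, t⟩ : ℂ) + ⟨0, s - t⟩ = ⟨R, s⟩ from Complex.ext (by simp) (by simp), j2_norm] at h1
    simpa [Real.sqrt_sq_eq_abs] using h1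
  have := mul_le_mul_of_nonneg_left h hκ
  simp only [xi]
  linarith

theorem convexOn_xi {κ : ℝ} (hκ : 0 ≤ κ) (R : ℝ) : ConvexOn ℝ univ (xi κ R) := by
  refine ⟨convex_univ, fun s _ t _ a b ha hb hab => ?_⟩
  have h1 := norm_add_le (a • (⟨R, s⟩ : ℂ)) (b • (⟨R, t⟩ : ℂ))
  rw [norm_smul, norm_smul, j2_norm, j2_norm, Real.norm_of_nonneg ha, Real.norm_of_nonneg hb,
    show a • (⟨R, s⟩ : ℂ) + b • (⟨R, t⟩ : ℂ) = ⟨R, a * s + b * t⟩ from
      Complex.ext (by simp [← add_mul, hab]) (by simp), j2_norm] at h1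
  have := mul_le_mul_of_nonneg_left h1 hκ
  have h2 : a * (κ * R) + b * (κ * R) = κ * R := by rw [← add_mul, hab, one_mul]
  simp only [xi, smul_eq_mul]
  linarith

theorem contDiff_xi (κ : ℝ) {R : ℝ} (hR : 0 < R) : ContDiff ℝ ∞ (xi κ R) := by
  exact (contDiff_const.mul ((contDiff_const.add (contDiff_id.pow 2)).sqrt fun s => by positivity)).sub contDiff_const

theorem j2_sqrt {R : ℝ} (hR : 0 < R) (s : ℝ) : HasDerivAt (fun s => √(R ^ 2 + s ^ 2)) (s / √(R ^ 2 + s ^ 2)) s := by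
  convert ((hasDerivAt_pow 2 s).const_add (R ^ 2)).sqrt (by positivity) using 1
  simp only [Nat.cast_ofNat, Nat.add_one_sub_one, pow_one]
  rw [mul_div_mul_left _ _ two_ne_zero]

theorem j2_deriv (κ : ℝ) {R : ℝ} (hR : 0 < R) (s : ℝ) : HasDerivAt (xi κ R) (κ * s / √(R ^ 2 + s ^ 2)) s := by
  rw [mul_div_assoc]
  exact ((j2_sqrt hR s).const_mul κ).sub_const _

theorem deriv_xi (κ : ℝ) {R : ℝ} (hR : 0 < R) (s : ℝ) : deriv (xi κ R) s = κ * s / √(R ^ 2 + s ^ 2) := by
  exact (j2_deriv κ hR s).deriv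

theorem deriv2_xi (κ : ℝ) {R : ℝ} (hR : 0 < R) (s : ℝ) :
    deriv (deriv (xi κ R)) s = κ * R ^ 2 / √(R ^ 2 + s ^ 2) ^ 3 := by
  have h0 : 0 < √(R ^ 2 + s ^ 2) := by positivity
  have h1 : √(R ^ 2 + s ^ 2) ^ 2 = R ^ 2 + s ^ 2 := Real.sq_sqrt (by positivity)
  rw [funext (deriv_xi κ hR)]
  refine (((hasDerivAt_id' s).const_mul κ).fun_div (j2_sqrt hR s) h0.ne').deriv.trans ?_
  field_simp
  rw [h1]
  ring

namespace Geo

variable {N n : ℕ} {X : Geo N n}

theorem Disc.circleIntegrable (d : X.Disc) {f : Cn (N + 1) → ℝ} (hf : ContinuousOn f X.Y) :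
    CircleIntegrable (fun z => f (d.G z)) 0 1 := by
  have h : sphere (0 : ℂ) 1 ⊆ closedBall 0 1 := sphere_subset_closedBall
  exact (hf.comp (d.hG.continuousOn_ball.mono h) fun z hz => d.memY z (h hz)).circleIntegrable zero_le_one

theorem Disc.avg_mono (d : X.Disc) {f g : Cn (N + 1) → ℝ} (hf : ContinuousOn f X.Y) (hg : ContinuousOn g X.Y)
    (h : ∀ y ∈ X.Y, f y ≤ g y) : d.avg f ≤ d.avg g := by
  exact Real.circleAverage_mono (d.circleIntegrable hf) (d.circleIntegrable hg) fun z hz =>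
    h _ (d.memY z (sphere_subset_closedBall (by simpa using hz)))

theorem Disc.avg_add (d : X.Disc) {f g : Cn (N + 1) → ℝ} (hf : ContinuousOn f X.Y) (hg : ContinuousOn g X.Y) :
    d.avg (fun y => f y + g y) = d.avg f + d.avg g := by
  exact Real.circleAverage_add (d.circleIntegrable hf) (d.circleIntegrable hg)

theorem Disc.avg_const (d : X.Disc) (c : ℝ) : d.avg (fun _ => c) = c := by
  exact Real.circleAverage_const c 0 1

theorem Disc.TH_nonneg (d : X.Disc) : 0 ≤ d.TH := by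
  exact sub_nonneg.2 (log_norm_le_avg d.hG fun z hz => (d.memY z hz).1)

theorem Disc.TB_nonneg (d : X.Disc) : 0 ≤ d.TB := by
  exact sub_nonneg.2 (log_norm_le_avg d.hp d.neP)

/-- `p' = h • p` with `h` continuous on the closed disc, holomorphic inside (locally `p'_β / p_β`), without zeros. -/
theorem Disc.TB_congr (d d' : X.Disc) (h : ∀ z ∈ closedBall (0 : ℂ) 1, X.pl (d.G z) = X.pl (d'.G z)) : d.TB = d'.TB := by
  have hs : sphere (0 : ℂ) 1 ⊆ closedBall 0 1 := sphere_subset_closedBall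
  have hex : ∀ z ∈ closedBall (0 : ℂ) 1, ∃ t : ℂ, t ≠ 0 ∧ d'.p z = t • d.p z := fun z hz => by
    obtain ⟨U, hU⟩ := X.exists_frame (d.memY z hz)
    have h1 := d.memP z hz
    have h2 := d'.memP z hz
    rw [← h z hz] at h2
    rw [X.pl_eq (d.memY z hz) hU, Submodule.mem_span_singleton] at h1 h2
    obtain ⟨a, ha⟩ := h1
    obtain ⟨b, hb⟩ := h2
    have ha0 : a ≠ 0 := by rintro rfl; exact d.neP z hz (by rw [← ha, zero_smul])
    have hb0 : b ≠ 0 := by rintro rfl; exact d'.neP z hz (by rw [← hb, zero_smul])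
    exact ⟨b / a, div_ne_zero hb0 ha0, by rw [← ha, ← hb, smul_smul, div_mul_cancel₀ _ ha0]⟩
  choose! t ht0 ht using hex
  have hβ : ∀ z ∈ closedBall (0 : ℂ) 1, ∃ β, d.p z β ≠ 0 := fun z hz => by
    by_contra hh
    push Not at hh
    exact d.neP z hz (by ext β; simp [hh β])
  have hq : ∀ β, ∀ z ∈ closedBall (0 : ℂ) 1, d.p z β ≠ 0 → t z = d'.p z β / d.p z β := fun β z hz hne => by
    rw [ht z hz]; simp [hne]
  have c1 : ∀ (e : X.Disc) β, ContinuousOn (fun z => e.p z β) (closedBall 0 1) := fun e β =>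
    (EuclideanSpace.proj (𝕜 := ℂ) β).continuous.comp_continuousOn e.hp.continuousOn_ball
  have c2 : ∀ (e : X.Disc) β, DifferentiableOn ℂ (fun z => e.p z β) (ball 0 1) := fun e β =>
    (EuclideanSpace.proj (𝕜 := ℂ) β).differentiable.comp_differentiableOn e.hp.differentiableOn
  have hT : DiffContOnCl ℂ t (ball 0 1) := by
    refine ⟨fun z hz => ?_, ?_⟩
    · obtain ⟨β, hβ⟩ := hβ z (ball_subset_closedBall hz)
      refine ((c2 d' β z hz).div (c2 d β z hz) hβ).congr_of_eventuallyEq ?_ (hq β z (ball_subset_closedBall hz) hβ)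
      filter_upwards [(c2 d β z hz).continuousWithinAt.eventually_ne hβ, self_mem_nhdsWithin] with x h1 h2
      exact hq β x (ball_subset_closedBall h2) h1
    · rw [closure_ball _ one_ne_zero]
      intro z hz
      obtain ⟨β, hβ⟩ := hβ z hz
      refine ((c1 d' β z hz).div (c1 d β z hz) hβ).congr_of_eventuallyEq ?_ (hq β z hz hβ)
      filter_upwards [(c1 d β z hz).eventually_ne hβ, self_mem_nhdsWithin] with x h1 h2
      exact hq β x h2 h1
  have hlog : ∀ z ∈ closedBall (0 : ℂ) 1,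
      Real.log (‖d'.p z‖ ^ 2) = Real.log (‖t z‖ ^ 2) + Real.log (‖d.p z‖ ^ 2) := fun z hz => by
    rw [ht z hz, norm_smul, mul_pow, Real.log_mul (pow_ne_zero _ (norm_ne_zero_iff.2 (ht0 z hz)))
      (pow_ne_zero _ (norm_ne_zero_iff.2 (d.neP z hz)))]
  have i1 : CircleIntegrable (fun z => Real.log (‖t z‖ ^ 2)) 0 1 :=
    (((hT.continuousOn_ball.mono hs).norm.pow 2).log fun z hz =>
      pow_ne_zero _ (norm_ne_zero_iff.2 (ht0 z (hs hz)))).circleIntegrable zero_le_one
  have i2 : CircleIntegrable (fun z => Real.log (‖d.p z‖ ^ 2)) 0 1 :=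
    (((d.hp.continuousOn_ball.mono hs).norm.pow 2).log fun z hz =>
      pow_ne_zero _ (norm_ne_zero_iff.2 (d.neP z (hs hz)))).circleIntegrable zero_le_one
  have e1 : Real.circleAverage (fun z => Real.log (‖d'.p z‖ ^ 2)) 0 1 =
      Real.circleAverage (fun z => Real.log (‖t z‖ ^ 2) + Real.log (‖d.p z‖ ^ 2)) 0 1 :=
    Real.circleAverage_congr_sphere fun z hz => hlog z (hs (by simpa using hz))
  simp only [Disc.TB]
  rw [e1, Real.circleAverage_fun_add i1 i2, avg_log_eq hT ht0, hlog 0 (mem_closedBall_self zero_le_one)]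
  ring

/-- Jensen's inequality for the convex function `xi` (tangent line at `avg s`), then `xi_lip`. -/
theorem Disc.xi_le_avg (d : X.Disc) {κ R : ℝ} (hκ : 0 ≤ κ) (hR : 0 < R) :
    xi κ R d.s0 - κ * d.TH ≤ d.avg fun y => xi κ R (Real.log (‖y‖ ^ 2)) := by
  have hs : ContinuousOn (fun y : Cn (N + 1) => Real.log (‖y‖ ^ 2)) X.Y :=
    ContinuousOn.log (by fun_prop) fun y hy => pow_ne_zero 2 (norm_ne_zero_iff.2 hy.1)
  set m := d.avg fun y => Real.log (‖y‖ ^ 2) with hm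
  set c := κ * m / √(R ^ 2 + m ^ 2) with hc
  have h1 : ∀ s, (xi κ R m - c * m) + c * s ≤ xi κ R s := fun s => by
    have e0 : 0 < √(R ^ 2 + m ^ 2) := by positivity
    have e1 : √(R ^ 2 + m ^ 2) ^ 2 = R ^ 2 + m ^ 2 := Real.sq_sqrt (by positivity)
    have e2 : R ^ 2 + m * s ≤ √(R ^ 2 + s ^ 2) * √(R ^ 2 + m ^ 2) := by
      rw [← Real.sqrt_mul (by positivity)]
      exact Real.le_sqrt_of_sq_le (by nlinarith [sq_nonneg (R * (m - s))])
    have e3 : κ * √(R ^ 2 + m ^ 2) - c * m + c * s = κ * ((R ^ 2 + m * s) / √(R ^ 2 + m ^ 2)) := by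
      rw [hc]
      field_simp
      rw [e1]
      ring
    have e4 := mul_le_mul_of_nonneg_left ((div_le_iff₀ e0).2 e2) hκ
    simp only [xi]
    linarith
  have h2 := d.avg_mono (continuousOn_const.add (continuousOn_const.mul hs))
    ((contDiff_xi κ hR).continuous.comp_continuousOn hs) fun y _ => h1 (Real.log (‖y‖ ^ 2))
  have h3 : d.avg (fun y => c * Real.log (‖y‖ ^ 2)) = c * m :=
    Real.circleAverage_fun_smul (a := c) (f := fun z => Real.log (‖d.G z‖ ^ 2))
  have h4 := d.avg_add (continuousOn_const (c := xi κ R m - c * m)) ((continuousOn_const (c := c)).mul hs)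
  have h5 := xi_lip hκ R d.s0 m
  have h6 : |d.s0 - m| = d.TH := by rw [abs_sub_comm]; exact abs_of_nonneg d.TH_nonneg
  rw [d.avg_const] at h4
  rw [h6] at h5
  have h7 : xi κ R m - c * m + d.avg (fun y => c * Real.log (‖y‖ ^ 2)) ≤
      d.avg fun y => xi κ R (Real.log (‖y‖ ^ 2)) := h4.symm.le.trans h2
  linarith

theorem PB.smul {a b C t : ℝ} (h : X.PB a b C) (ht : 0 ≤ t) : X.PB (t * a) (t * b) (t * C) := by
  intro d
  have := mul_le_mul_of_nonneg_left (h d) ht
  linarith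

theorem PB.mono {a b C a' b' : ℝ} (h : X.PB a b C) (ha : a ≤ a') (hb : b ≤ b') : X.PB a' b' C := by
  intro d
  have h1 := mul_le_mul_of_nonneg_right ha d.TB_nonneg
  have h2 := mul_le_mul_of_nonneg_right hb d.TH_nonneg
  linarith [h d]

theorem pb_zero {a b : ℝ} (ha : 0 ≤ a) (hb : 0 ≤ b) : X.PB a b 0 := by
  intro d
  have h1 := mul_nonneg ha d.TB_nonneg
  have h2 := mul_nonneg hb d.TH_nonneg
  linarith

end Geo

end Crest.Agent.R269
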